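import Vale.Agent.Lib.P057.helper31.Automata

namespace Vale.Agent.Results.P057.BoundedResidualWidth

/-- Erdős's conjecture on arithmetic progressions holds for sets of bounded residual width.
Let `b ≥ 2` and let `A` be a set of positive integers.  Suppose that there are a finite type `κ`
and a map `T` assigning to every level `s` and every low part `r < b ^ s` a class `T s r : κ`
such that two low parts `r, r'` of the same class at level `s` have the same completions: for
every `t ≥ 1`, if `r + b ^ s * t` lies in `A` then so does `r' + b ^ s * t`.  If the series of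
the reciprocals of the elements of `A` does not converge, then `A` contains a `k`-term
arithmetic progression with difference `d > 0` for every `k`. -/
theorem result (b : ℕ) (hb : 2 ≤ b) (A : Set ℕ) (hpos : ∀ a ∈ A, 0 < a)
    {κ : Type*} [Finite κ] (T : ℕ → ℕ → κ)
    (hT : ∀ s r r', r < b ^ s → r' < b ^ s → T s r = T s r' →
      ∀ t, 0 < t → r + b ^ s * t ∈ A → r' + b ^ s * t ∈ A)
    (hdiv : ¬ Summable (fun a : A => (1 : ℝ) / ((a : ℕ) : ℝ))) :
    ∀ k : ℕ, ∃ a d : ℕ, 0 < d ∧ ∀ i < k, a + i * d ∈ A := by
  intro k
  have _h := hpos
  exact Vale.Agent.Lib.P057.H31.core hb A T hT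
    (Vale.Agent.Lib.P057.H31.not_summable_indicator hdiv) k

end Vale.Agent.Results.P057.BoundedResidualWidth
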