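import Vale.Agent.Lib.P057.helper31.Uniform

namespace Vale.Agent.Results.P057.UniformReciprocalBound

/-- A uniform form of Erdős's conjecture on arithmetic progressions for sets of bounded residual
width.  For every base `b ≥ 2`, every `k` and every finite type `κ` of classes there is a
constant `C` such that the following holds.  Let `A` be a set of positive integers and `T` a map
assigning to every level `s` and every low part `r < b ^ s` a class `T s r : κ` such that two low
parts `r, r'` of the same class at level `s` have the same completions: for every `t ≥ 1`, if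
`r + b ^ s * t` lies in `A` then so does `r' + b ^ s * t`.  If `A` contains no `k`-term
arithmetic progression `a, a + d, ..., a + (k - 1) d` with `d > 0`, then the series of the
reciprocals of the elements of `A` converges and its sum is at most `C`. -/
theorem result (b : ℕ) (hb : 2 ≤ b) (k : ℕ) (κ : Type*) [Finite κ] :
    ∃ C : ℝ, ∀ (A : Set ℕ) (T : ℕ → ℕ → κ),
      (∀ a ∈ A, 0 < a) →
      (∀ s r r', r < b ^ s → r' < b ^ s → T s r = T s r' →
        ∀ t, 0 < t → r + b ^ s * t ∈ A → r' + b ^ s * t ∈ A) →
      (¬ ∃ a d : ℕ, 0 < d ∧ ∀ i < k, a + i * d ∈ A) →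
      Summable (fun a : A => (1 : ℝ) / ((a : ℕ) : ℝ)) ∧
        ∑' a : A, (1 : ℝ) / ((a : ℕ) : ℝ) ≤ C := by
  obtain ⟨C, hC⟩ := Vale.Agent.Lib.P057.H31.uniform_bound b hb k κ
  exact ⟨C, fun A T _ hT hno => hC A T hT hno⟩

end Vale.Agent.Results.P057.UniformReciprocalBound
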