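import Vale.Agent.Lib.P057.helper31.Automata

namespace Vale.Agent.Results.P057.VaryingAutomata

/-- Erdős's conjecture on arithmetic progressions holds for sets recognised by finite automata
whose transition map may depend on the digit position.
Let `b ≥ 2`, let `Q` be a finite state set, `q₀` a start state, `acc` the accepting states and
`δ i : Q → ℕ → Q` the transition map used at digit position `i` (position `0` is the least
significant digit).  Let `A` be the set of the positive integers `n` for which the state reached
from `q₀` after reading the base-`b` digits of `n`, least significant first, the digit at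
position `i` with `δ i`, is accepting.  If the series of the reciprocals of the elements of `A`
does not converge, then `A` contains a `k`-term arithmetic progression with difference `d > 0`
for every `k`. -/
theorem result (b : ℕ) (hb : 2 ≤ b) {Q : Type*} [Finite Q]
    (δ : ℕ → Q → ℕ → Q) (q₀ : Q) (acc : Q → Prop) (A : Set ℕ)
    (hA : ∀ n, n ∈ A ↔
      0 < n ∧ acc ((Nat.digits b n).zipIdx.foldl (fun q p => δ p.2 q p.1) q₀))
    (hdiv : ¬ Summable (fun a : A => (1 : ℝ) / ((a : ℕ) : ℝ))) :
    ∀ k : ℕ, ∃ a d : ℕ, 0 < d ∧ ∀ i < k, a + i * d ∈ A :=
  fun k => Vale.Agent.Lib.P057.H31.ap_of_varying_lsd b hb δ q₀ acc A hA hdiv k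

end Vale.Agent.Results.P057.VaryingAutomata
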