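import Vale.Agent.Lib.P057.helper26.Example

namespace Vale.Agent.Results.P057.WidthZeroDensity

/-- **Erdős's conjecture on progressions for sets of bounded residual width, and a member of
the class of density zero.**

(1) Let `b ≥ 2` and let `A` be a set of natural numbers.  Suppose that the low parts `r < b ^ s`
(the `s` lowest base-`b` digits) are classified by a map `T s r` with values in a finite type `κ`
(so the number of classes is bounded independently of `s`), in such a way that two low parts of
the same class have the same completions in `A`: for every `t ≥ 1`,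
`r + b ^ s * t ∈ A → r' + b ^ s * t ∈ A`.  If the reciprocals of the elements of `A` are not
summable, then for every `k` the set `A` contains a `k`-term arithmetic progression
`a, a + d, ..., a + (k - 1) d` with `a ≥ 1` and `d ≥ 1`.

(2) The class is not exhausted by sets of positive density: there is a set `A` of positive
integers satisfying the hypothesis of (1) with `b = 2` and two classes (`κ = Prop`), whose
reciprocals are not summable and which has natural density zero. -/
theorem result :
    (∀ (b : ℕ), 2 ≤ b → ∀ (A : Set ℕ) (κ : Type) [Finite κ] (T : ℕ → ℕ → κ),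
      (∀ s r r', r < b ^ s → r' < b ^ s → T s r = T s r' →
        ∀ t, 1 ≤ t → r + b ^ s * t ∈ A → r' + b ^ s * t ∈ A) →
      ¬ Summable (fun a : A => (1 : ℝ) / (a : ℕ)) →
      ∀ k : ℕ, ∃ a d : ℕ, 0 < a ∧ 0 < d ∧ ∀ j < k, a + j * d ∈ A) ∧
    (∃ (A : Set ℕ) (T : ℕ → ℕ → Prop),
      (∀ a ∈ A, 0 < a) ∧
      (∀ s r r', r < 2 ^ s → r' < 2 ^ s → T s r = T s r' →
        ∀ t, 1 ≤ t → r + 2 ^ s * t ∈ A → r' + 2 ^ s * t ∈ A) ∧
      ¬ Summable (fun a : A => (1 : ℝ) / (a : ℕ)) ∧
      ∀ ε : ℝ, 0 < ε → ∃ N₀ : ℕ, ∀ N ≥ N₀, ((A ∩ Set.Iic N).ncard : ℝ) ≤ ε * N) :=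
  ⟨fun b hb A κ _ T hT hdiv k => Vale.Agent.Lib.P057.H26.core b hb A κ T hT hdiv k,
    Vale.Agent.Lib.P057.H26.exists_zero_density_member⟩

end Vale.Agent.Results.P057.WidthZeroDensity
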